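import Mathlib

set_option autoImplicit false

namespace Vale.Agent.P181.RG.H739

theorem choose_fact_le (t u : ℕ) (hu : 1 ≤ u) :
    (t + u - 1).choose (u - 1) * u.factorial ≤ (t + u) ^ u := by
  obtain ⟨v, rfl⟩ : ∃ v, u = v + 1 := ⟨u - 1, by omega⟩
  have h1 : t + (v + 1) - 1 = t + v := by omega
  have h2 : v + 1 - 1 = v := by omega
  rw [h1, h2, Nat.factorial_succ]
  have h3 : (t + v).choose v * v.factorial ≤ (t + v) ^ v := by
    have := Nat.descFactorial_eq_factorial_mul_choose (t + v) v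
    have h4 := Nat.descFactorial_le_pow (t + v) v
    calc (t + v).choose v * v.factorial = (t + v).descFactorial v := by rw [this, mul_comm]
      _ ≤ (t + v) ^ v := h4
  calc (t + v).choose v * ((v + 1) * v.factorial)
      = (v + 1) * ((t + v).choose v * v.factorial) := by ring
    _ ≤ (t + (v + 1)) * (t + (v + 1)) ^ v := by
        apply Nat.mul_le_mul (by omega)
        exact h3.trans (Nat.pow_le_pow_left (by omega) v)
    _ = (t + (v + 1)) ^ (v + 1) := by rw [pow_succ]; ring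

theorem fin_ineq (m a u L l x : ℝ) (hm : 3 ≤ m) (ha : 0 < a) (hu : 0 < u) (hau : 19 * a ≤ u)
    (hL : 0 < L) (hl : l ≤ L / 40) (hx : x ≤ L / 40) :
    m * a * l + u * (l + x + 2 * L) ≤ m * (u - a) * (L - (l + 2 * x)) := by
  have hmp : (0 : ℝ) < m := by linarith
  have hua : (0 : ℝ) < u - a := by linarith
  have e1 : m * a * l ≤ m * a * (L / 40) :=
    mul_le_mul_of_nonneg_left hl (by positivity)
  have e2 : u * (l + x + 2 * L) ≤ u * (82 / 40 * L) :=
    mul_le_mul_of_nonneg_left (by linarith) hu.le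
  have e3 : m * (u - a) * (37 / 40 * L) ≤ m * (u - a) * (L - (l + 2 * x)) :=
    mul_le_mul_of_nonneg_left (by linarith) (mul_nonneg hmp.le hua.le)
  have e6 : 35 * u ≤ 37 * u - 38 * a := by linarith
  have e7 : m * (35 * u) ≤ m * (37 * u - 38 * a) := mul_le_mul_of_nonneg_left e6 hmp.le
  have e8 : 3 * (35 * u) ≤ m * (35 * u) := mul_le_mul_of_nonneg_right hm (by positivity)
  have e5 : m * a + 82 * u ≤ 37 * (m * (u - a)) := by
    have e : m * (37 * u - 38 * a) = 37 * (m * (u - a)) - m * a := by ring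
    linarith
  have e9 := mul_le_mul_of_nonneg_right e5 (by positivity : (0 : ℝ) ≤ L / 40)
  have e10 : (m * a + 82 * u) * (L / 40) = m * a * (L / 40) + u * (82 / 40 * L) := by ring
  have e11 : 37 * (m * (u - a)) * (L / 40) = m * (u - a) * (37 / 40 * L) := by ring
  linarith

theorem num_core : ∃ a₀ : ℕ, ∀ (a b X m u t y : ℕ), a₀ ≤ a → 2 ≤ X → X ^ 40 ≤ a →
    b ≤ X * a → 3 ≤ m → 19 * a ≤ u → u ≤ b → t ≤ a * b → a ^ 2 ≤ 2 * X * y →
    2 ^ (m * a) * ((t + u - 1).choose (u - 1) : ℝ) * (u.factorial : ℝ) ≤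
      (1 + (y : ℝ) / u) ^ (m * (u - a)) := by
  refine ⟨0, ?_⟩
  intro a b X m u t y _ hX hXa hb hm hu hub ht hy
  have ha1 : 1 ≤ a := le_trans (Nat.one_le_pow _ _ (by omega)) hXa
  have hu1 : 1 ≤ u := by omega
  have hap : (0 : ℝ) < a := by exact_mod_cast ha1
  have ha1r : (1 : ℝ) ≤ a := by exact_mod_cast ha1
  have hup : (0 : ℝ) < u := by exact_mod_cast hu1
  have hX2 : (2 : ℝ) ≤ X := by exact_mod_cast hX
  have hXp : (0 : ℝ) < X := by linarith
  have hbr : (b : ℝ) ≤ X * a := by exact_mod_cast hb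
  have hubr : (u : ℝ) ≤ b := by exact_mod_cast hub
  have htr : (t : ℝ) ≤ a * b := by exact_mod_cast ht
  have hyr : (a : ℝ) ^ 2 ≤ 2 * X * y := by exact_mod_cast hy
  have hur : 19 * (a : ℝ) ≤ u := by exact_mod_cast hu
  have hmr : (3 : ℝ) ≤ m := by exact_mod_cast hm
  have hXar : (X : ℝ) ^ 40 ≤ a := by exact_mod_cast hXa
  have hlX : 40 * Real.log X ≤ Real.log a := by
    have h := Real.log_le_log (by positivity) hXar
    rw [Real.log_pow] at h
    exact_mod_cast h
  have hl2 : Real.log 2 ≤ Real.log X := Real.log_le_log (by norm_num) hX2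
  have hl20 : 0 < Real.log 2 := Real.log_pos (by norm_num)
  have hL : 0 < Real.log a := by linarith
  -- the left-hand side
  have hnat := choose_fact_le t u hu1
  have hnr : ((t + u - 1).choose (u - 1) : ℝ) * (u.factorial : ℝ) ≤ ((t : ℝ) + u) ^ u := by
    exact_mod_cast hnat
  have htu : (t : ℝ) + u ≤ 2 * X * (a : ℝ) ^ 2 := by
    have h1 : (a : ℝ) * b ≤ a * (X * a) := mul_le_mul_of_nonneg_left hbr hap.le
    have h2 : (X : ℝ) * a ≤ X * a * a := by
      have := mul_le_mul_of_nonneg_left ha1r (mul_nonneg hXp.le hap.le)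
      linarith
    nlinarith
  have hpow : ((t : ℝ) + u) ^ u ≤ (2 * X * (a : ℝ) ^ 2) ^ u :=
    pow_le_pow_left₀ (by positivity) htu u
  have hstep1 : 2 ^ (m * a) * ((t + u - 1).choose (u - 1) : ℝ) * (u.factorial : ℝ) ≤
      2 ^ (m * a) * (2 * X * (a : ℝ) ^ 2) ^ u := by
    rw [mul_assoc]
    exact mul_le_mul_of_nonneg_left (hnr.trans hpow) (by positivity)
  -- the right-hand side
  have hq : (a : ℝ) / (2 * X ^ 2) ≤ 1 + (y : ℝ) / u := by
    have h1 : (a : ℝ) / (2 * X ^ 2) ≤ (y : ℝ) / u := by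
      rw [div_le_div_iff₀ (by positivity) hup]
      have h2 : (u : ℝ) ≤ X * a := hubr.trans hbr
      have h3 : (a : ℝ) * u ≤ a * (X * a) := mul_le_mul_of_nonneg_left h2 hap.le
      have h4 : (X : ℝ) * (a : ℝ) ^ 2 ≤ X * (2 * X * y) := mul_le_mul_of_nonneg_left hyr hXp.le
      nlinarith
    linarith
  have hqp : (0 : ℝ) < (a : ℝ) / (2 * X ^ 2) := by positivity
  have hstep3 : ((a : ℝ) / (2 * X ^ 2)) ^ (m * (u - a)) ≤ (1 + (y : ℝ) / u) ^ (m * (u - a)) :=
    pow_le_pow_left₀ hqp.le hq _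
  -- the middle
  have hstep2 : 2 ^ (m * a) * (2 * X * (a : ℝ) ^ 2) ^ u ≤
      ((a : ℝ) / (2 * X ^ 2)) ^ (m * (u - a)) := by
    have hp1 : (0 : ℝ) < 2 ^ (m * a) * (2 * X * (a : ℝ) ^ 2) ^ u := by positivity
    have hp2 : (0 : ℝ) < ((a : ℝ) / (2 * X ^ 2)) ^ (m * (u - a)) := by positivity
    apply (Real.log_le_log_iff hp1 hp2).1
    rw [Real.log_mul (by positivity) (by positivity), Real.log_pow, Real.log_pow, Real.log_pow,
      Real.log_mul (by positivity) (by positivity), Real.log_mul (by positivity) (by positivity),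
      Real.log_div (by positivity) (by positivity), Real.log_mul (by positivity) (by positivity),
      Real.log_pow, Real.log_pow]
    have hcast : ((m * (u - a) : ℕ) : ℝ) = m * ((u : ℝ) - a) := by
      rw [Nat.cast_mul, Nat.cast_sub (by omega)]
    rw [hcast]
    push_cast
    set L := Real.log a with hLdef
    set x := Real.log X with hx
    set l := Real.log 2 with hl
    have hl' : l ≤ L / 40 := by linarith
    have hx' : x ≤ L / 40 := by linarith
    exact fin_ineq m a u L l x hmr hap hup hur hL hl' hx'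
  exact hstep1.trans (hstep2.trans hstep3)

end Vale.Agent.P181.RG.H739
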