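import Vale.Agent.P181.RG.Defs
import Vale.Agent.P181.RG.H739.NumCore

set_option autoImplicit false

namespace Vale.Agent.P181.RG.H739

/-- **[NUM]** of line RG. -/
theorem num : NumRG := num_core

end Vale.Agent.P181.RG.H739
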